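import Vale.Agent.H39.M6.Defs

/-!
TASK M6-ALTSUM (done; helper lemmas in this file, names starting `als_`).

Alternating sum over a subcube: for every real `G` on the cube and every set `S` of coordinates,
`∑_{U ⊆ S} (-1)^|U| G(1_U) = 2^|S| ∑_{T ⊇ S} coef G T`, where `1_U = fun i => decide (i ∈ U)` is the
point with `true` exactly on `U`.

Sketch.  By `coef_inversion G x : G x = ∑ T, coef G T * chi T x` and `Finset.sum_comm` it is enough
to show, for each `T`:
`∑ U ∈ S.powerset, (-1)^U.card * chi T (fun i => decide (i ∈ U)) = if S ⊆ T then 2^S.card else 0`.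
`chi T (1_U) = ∏ i ∈ T, bsign (decide (i ∈ U))` and ` (-1)^U.card * chi T (1_U) = ∏ i ∈ U, g i` with
`g i = if i ∈ T then (1 : ℝ) else -1` (`chi T (1_U) = ∏ i ∈ U, (if i ∈ T then -1 else 1)`: only the
`i ∈ T ∩ U` contribute, `Finset.prod_ite_mem`/`Finset.prod_filter`; ` (-1)^U.card = ∏ i ∈ U, (-1)`).
Then `Finset.prod_one_add : ∏ i ∈ S, (1 + g i) = ∑ U ∈ S.powerset, ∏ i ∈ U, g i`, and
`1 + g i = if i ∈ T then 2 else 0`, so the product is `2^S.card` if `S ⊆ T` and `0` otherwise
(`Finset.prod_eq_zero`, `Finset.prod_const`).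
-/

namespace Vale.Agent.H39

open Finset

lemma als_chi {n : ℕ} (T U : Finset (Fin n)) :
    chi T (fun i => decide (i ∈ U)) = ∏ i ∈ U, (if i ∈ T then (-1 : ℝ) else 1) := by
  have h1 : chi T (fun i => decide (i ∈ U)) = ∏ i ∈ T, (if i ∈ U then (-1 : ℝ) else 1) := by
    unfold chi
    apply Finset.prod_congr rfl
    intro i _
    by_cases h : i ∈ U <;> simp [h]
  rw [h1, Finset.prod_ite_mem, Finset.prod_ite_mem, Finset.inter_comm]

lemma als_key {n : ℕ} (S T : Finset (Fin n)) :
    ∑ U ∈ S.powerset, (-1 : ℝ) ^ U.card * chi T (fun i => decide (i ∈ U))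
      = if S ⊆ T then (2 : ℝ) ^ S.card else 0 := by
  have h1 : ∀ U ∈ S.powerset, (-1 : ℝ) ^ U.card * chi T (fun i => decide (i ∈ U))
      = ∏ i ∈ U, (if i ∈ T then (1 : ℝ) else -1) := by
    intro U _
    rw [als_chi, ← Finset.prod_const, ← Finset.prod_mul_distrib]
    apply Finset.prod_congr rfl
    intro i _
    by_cases h : i ∈ T <;> simp [h]
  rw [Finset.sum_congr rfl h1, ← Finset.prod_one_add]
  split_ifs with hST
  · rw [← Finset.prod_const]
    apply Finset.prod_congr rfl
    intro i hi
    rw [if_pos (hST hi)]; norm_num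
  · obtain ⟨i, hiS, hiT⟩ := Finset.not_subset.mp hST
    apply Finset.prod_eq_zero hiS
    rw [if_neg hiT]; norm_num

theorem altsum_fourier {n : ℕ} (G : (Fin n → Bool) → ℝ) (S : Finset (Fin n)) :
    ∑ U ∈ S.powerset, (-1 : ℝ) ^ U.card * G (fun i => decide (i ∈ U))
      = 2 ^ S.card * ∑ T : Finset (Fin n), if S ⊆ T then coef G T else 0 := by
  calc ∑ U ∈ S.powerset, (-1 : ℝ) ^ U.card * G (fun i => decide (i ∈ U))
      = ∑ U ∈ S.powerset, ∑ T : Finset (Fin n),
          coef G T * ((-1 : ℝ) ^ U.card * chi T (fun i => decide (i ∈ U))) := by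
        apply Finset.sum_congr rfl
        intro U _
        rw [coef_inversion G (fun i => decide (i ∈ U)), Finset.mul_sum]
        apply Finset.sum_congr rfl
        intro T _
        ring
    _ = ∑ T : Finset (Fin n), coef G T *
          ∑ U ∈ S.powerset, (-1 : ℝ) ^ U.card * chi T (fun i => decide (i ∈ U)) := by
        rw [Finset.sum_comm]
        apply Finset.sum_congr rfl
        intro T _
        rw [Finset.mul_sum]
    _ = ∑ T : Finset (Fin n), coef G T * (if S ⊆ T then (2 : ℝ) ^ S.card else 0) := by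
        apply Finset.sum_congr rfl
        intro T _
        rw [als_key]
    _ = 2 ^ S.card * ∑ T : Finset (Fin n), if S ⊆ T then coef G T else 0 := by
        rw [Finset.mul_sum]
        apply Finset.sum_congr rfl
        intro T _
        split_ifs <;> ring

end Vale.Agent.H39
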