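import Vale.Agent.H39.D4.Identity

/-!
# Monotone functions of degree at most six: definitions (seat H39)

Points of the cube are `x : Fin n → Bool` (`true` is the sign `-1`, `false` the sign `1`).
`starF F x = -F(-x)` is the dual function.  `topV G` is the second-order expression
`15/2 G(+) - 7/4 ∑_i (G(+) - G(+ⁱ)) + 1/8 ∑_{i ≠ j} (G(+) - G(+ⁱ) - G(+ʲ) + G(+ⁱʲ))`
at the all-`false` point `+` (`+ⁱ`, `+ⁱʲ`: the coordinates `i`, resp. `i` and `j`, set to `true`).
For a function whose Fourier coefficients of odd order at least `7` vanish,
`8 ∑_i F^({i}) = topV F + topV (starF F)`.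
-/

namespace Vale.Agent.H39

open Finset

/-- the dual function `x ↦ -F(-x)` -/
noncomputable def starF {n : ℕ} (F : (Fin n → Bool) → ℝ) : (Fin n → Bool) → ℝ :=
  fun x => -F (fun i => !x i)

/-- the second-order expression at the all-`false` point -/
noncomputable def topV {n : ℕ} (G : (Fin n → Bool) → ℝ) : ℝ :=
  15 / 2 * G (fun _ => false)
    - 7 / 4 * ∑ i : Fin n, (G (fun _ => false) - G (Function.update (fun _ => false) i true))
    + 1 / 8 * ∑ i : Fin n, ∑ j : Fin n, if i = j then 0 else
        (G (fun _ => false) - G (Function.update (fun _ => false) i true)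
          - G (Function.update (fun _ => false) j true)
          + G (Function.update (Function.update (fun _ => false) i true) j true))

end Vale.Agent.H39
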