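import Vale.Agent.H39.M6.Defs

/-!
TASK M6-STAR (helper lemmas in this file have names starting `str_`).

The dual function `starF F x = -F (fun i => !x i)` (Defs.lean).
* `coef_starF`: `coef (starF F) S = -((-1)^|S| * coef F S)`, from `coef_flip` (LevelOne.lean) with
  `z = fun _ => true`.
* `starF_antitone`: if `x ≤ y` then the pointwise negation of `y` is below that of `x`, so
  `F (¬x) ≤ F (¬y)` and negation reverses.
* `starF_val`: the values stay in `{1, -1}`.
-/

namespace Vale.Agent.H39

open Finset

lemma str_flip_true {n : ℕ} (x : Fin n → Bool) :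
    flipCube (fun _ => true) x = fun i => !x i := by
  funext i
  simp [flipCube]

lemma str_coef_neg {n : ℕ} (G : (Fin n → Bool) → ℝ) (S : Finset (Fin n)) :
    coef (fun x => -G x) S = -coef G S := by
  unfold coef
  simp only [neg_mul, Finset.sum_neg_distrib, neg_div]

theorem coef_starF {n : ℕ} (F : (Fin n → Bool) → ℝ) (S : Finset (Fin n)) :
    coef (starF F) S = -((-1 : ℝ) ^ S.card * coef F S) := by
  have h1 : starF F = fun x => -(fun y => F (flipCube (fun _ => true) y)) x := by
    funext x
    simp only [starF, str_flip_true]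
  rw [h1, str_coef_neg, coef_flip]
  simp [Finset.prod_const]

theorem starF_antitone {n : ℕ} (F : (Fin n → Bool) → ℝ) (h : Antitone F) :
    Antitone (starF F) := by
  intro x y hxy
  have h2 : (fun i => !y i) ≤ (fun i => !x i) := by
    intro i
    have hi : x i ≤ y i := hxy i
    show (!y i) ≤ (!x i)
    generalize x i = a at hi ⊢
    generalize y i = b at hi ⊢
    revert hi
    cases a <;> cases b <;> decide
  have h3 : F (fun i => !x i) ≤ F (fun i => !y i) := h h2
  show -F (fun i => !y i) ≤ -F (fun i => !x i)
  linarith

theorem starF_val {n : ℕ} (F : (Fin n → Bool) → ℝ) (hF : ∀ x, F x = 1 ∨ F x = -1) :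
    ∀ x, starF F x = 1 ∨ starF F x = -1 := by
  intro x
  rcases hF (fun i => !x i) with h | h
  · right
    simp [starF, h]
  · left
    simp [starF, h]

end Vale.Agent.H39
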