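import Vale.Agent.H39.M6.TopExpand
import Vale.Agent.H39.M6.Star

/-!
TASK M6-IDENT (replace the `sorry`, keep the statement exactly; helper lemmas in this file,
names starting `id6_`).  You may use `topV_expand` (TopExpand.lean) and `coef_starF` (Star.lean)
even while they are still `sorry` there.

Level-one identity in degree at most six: if `coef F S = 0` for all `S` of odd cardinality at
least `7`, then `8 ∑_i coef F {i} = topV F + topV (starF F)`.

Sketch.  By `topV_expand` twice and `coef_starF`,
`topV F + topV (starF F) = ∑_S coef F S * ((1 - (-1)^|S|) * ((|S| - 3)(|S| - 5)/2))`.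
The factor vanishes for even `|S|` (`Even.neg_one_pow`), for `|S| = 3` and `|S| = 5`; `coef F S = 0`
for odd `|S| ≥ 7` (`Odd.neg_one_pow` gives the factor `2`); for `|S| = 1` the factor is `8`.  So the
sum is `∑_S (if S.card = 1 then 8 * coef F S else 0)` (case split on `S.card`: `Nat.even_or_odd`,
then `S.card = 1 ∨ S.card = 3 ∨ S.card = 5 ∨ 5 < S.card` by `omega` from oddness), and
`∑_S (if S.card = 1 then g S else 0) = ∑ i, g {i}`: `Finset.sum_filter`,
`Finset.powersetCard_one` (`powersetCard 1 univ = univ.map ⟨singleton, _⟩`), `Finset.sum_map`;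
or `Finset.sum_bij` with `i ↦ {i}` and `Finset.card_eq_one`.
-/

namespace Vale.Agent.H39

open Finset

/-- A sum over the sets of cardinality one is a sum over singletons. -/
theorem id6_sum_card_one {n : ℕ} (g : Finset (Fin n) → ℝ) :
    ∑ S : Finset (Fin n), (if S.card = 1 then g S else 0) = ∑ i : Fin n, g {i} := by
  rw [← Finset.sum_filter]
  have e : (Finset.univ.filter (fun S : Finset (Fin n) => S.card = 1)) =
      Finset.univ.map ⟨fun i : Fin n => ({i} : Finset (Fin n)), Finset.singleton_injective⟩ := by
    ext S
    simp only [Finset.mem_filter, Finset.mem_univ, true_and, Finset.mem_map,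
      Function.Embedding.coeFn_mk]
    rw [Finset.card_eq_one]
    constructor
    · rintro ⟨a, ha⟩
      exact ⟨a, ha.symm⟩
    · rintro ⟨a, ha⟩
      exact ⟨a, ha.symm⟩
  rw [e, Finset.sum_map]
  rfl

theorem levelOne_identity6 {n : ℕ} (F : (Fin n → Bool) → ℝ)
    (hdeg : ∀ S : Finset (Fin n), Odd S.card → 5 < S.card → coef F S = 0) :
    8 * ∑ i : Fin n, coef F {i} = topV F + topV (starF F) := by
  have e1 : 8 * ∑ i : Fin n, coef F {i} =
      ∑ S : Finset (Fin n), (if S.card = 1 then 8 * coef F S else 0) := by
    rw [id6_sum_card_one (fun S => 8 * coef F S), Finset.mul_sum]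
  rw [e1, topV_expand F, topV_expand (starF F), ← Finset.sum_add_distrib]
  apply Finset.sum_congr rfl
  intro S _
  rw [coef_starF]
  rcases Nat.even_or_odd S.card with he | ho
  · have h1 : S.card ≠ 1 := by
      intro h
      rw [h] at he
      exact absurd he (by decide)
    rw [if_neg h1, he.neg_one_pow]
    ring
  · rw [ho.neg_one_pow]
    have hc : S.card = 1 ∨ S.card = 3 ∨ S.card = 5 ∨ 5 < S.card := by
      obtain ⟨k, hk⟩ := ho
      omega
    rcases hc with h | h | h | h
    · rw [if_pos h, h]
      norm_num
      ring
    · rw [if_neg (by omega), h]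
      norm_num
    · rw [if_neg (by omega), h]
      norm_num
    · rw [if_neg (by omega), hdeg S ho h]
      ring

end Vale.Agent.H39
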