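import Vale.Agent.H39.M6.Defs

/-!
TASK M6-MAJ (closed by seat helper90; statements kept exactly; helper lemmas in this file,
names starting `maj_`).

Majority on `3` and on `5` bits: `maj n x = true` iff more than half of the coordinates of `x`
are `true`.  It is monotone, and its level-one sums are `3/2` and `15/8`.

Sketch.  `maj_monotone`: if `x ≤ y` then `filter (x · = true) ⊆ filter (y · = true)`
(`Finset.card_le_card`, `Bool.le_iff_imp`/`Pi.le_def`), and `decide p ≤ decide q` when `p → q`.
`maj3_sum`, `maj5_sum`: `fhat f {i} = (∑ x, bsign (f x) * ∏ k ∈ {i}, bsign (x k)) / 2^n`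
(CubeDefs.lean).  Either prove `fhat (maj 5) {i} = 3/8` for each `i` and sum, or compute the whole
sum: turn the sum over `Fin 5 → Bool` into a finite computation, e.g. via an explicit equivalence
with `Fin 32`/bit vectors and `decide`/`norm_num` on integers after showing that each summand is the
cast of an integer (`bsign b = ((if b then -1 else 1 : ℤ) : ℝ)`, `Int.cast_sum`, `Int.cast_prod`),
as in `Vale/Agent/H13/GSSeven.lean` / `Vale/Agent/H26/GSFhat.lean` (seven variables), or
`simp [Fintype.sum_pow, Fin.sum_univ_succ, Fintype.piFinset, ...]`.  By symmetry one may also show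
`∑ i, ∑ x, bsign (maj n x) * bsign (x i) = ∑ x, bsign (maj n x) * ∑ i, bsign (x i)` and evaluate
over the `2^n` points with `decide` on `ℤ`.
-/

namespace Vale.Agent.H39

open Finset

/-- majority: more than half of the coordinates are `true` -/
def maj (n : ℕ) (x : Fin n → Bool) : Bool :=
  decide (n < 2 * (Finset.univ.filter (fun i => x i = true)).card)

theorem maj_monotone (n : ℕ) : Monotone (maj n) := by
  intro x y hxy
  unfold maj
  rw [Bool.le_iff_imp]
  intro h
  rw [decide_eq_true_eq] at h ⊢
  refine lt_of_lt_of_le h (Nat.mul_le_mul_left 2 (Finset.card_le_card ?_))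
  intro i hi
  rw [Finset.mem_filter] at hi ⊢
  exact ⟨hi.1, Bool.le_iff_imp.mp (hxy i) hi.2⟩

lemma maj_bsign (b : Bool) : bsign b = (((if b then -1 else 1 : ℤ)) : ℝ) := by
  cases b <;> simp [bsign]

lemma maj_int3 : ∀ i : Fin 3, ∑ x : Fin 3 → Bool,
    (if maj 3 x then -1 else 1 : ℤ) * (if x i then -1 else 1 : ℤ) = 4 := by
  decide +kernel

lemma maj_int5 : ∀ i : Fin 5, ∑ x : Fin 5 → Bool,
    (if maj 5 x then -1 else 1 : ℤ) * (if x i then -1 else 1 : ℤ) = 12 := by
  decide +kernel

lemma maj_fhat (n : ℕ) (f : (Fin n → Bool) → Bool) (i : Fin n) :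
    fhat f {i} = ((∑ x : Fin n → Bool,
      (if f x then -1 else 1 : ℤ) * (if x i then -1 else 1 : ℤ) : ℤ) : ℝ) / 2 ^ n := by
  unfold fhat
  congr 1
  rw [Int.cast_sum]
  refine Finset.sum_congr rfl fun x _ => ?_
  rw [Finset.prod_singleton, maj_bsign, maj_bsign, Int.cast_mul]

theorem maj3_sum : ∑ i : Fin 3, fhat (maj 3) {i} = 3 / 2 := by
  have h : ∀ i : Fin 3, fhat (maj 3) {i} = 1 / 2 := by
    intro i
    rw [maj_fhat, maj_int3 i]
    norm_num
  rw [Finset.sum_congr rfl fun i _ => h i]
  simp
  norm_num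

theorem maj5_sum : ∑ i : Fin 5, fhat (maj 5) {i} = 15 / 8 := by
  have h : ∀ i : Fin 5, fhat (maj 5) {i} = 3 / 8 := by
    intro i
    rw [maj_fhat, maj_int5 i]
    norm_num
  rw [Finset.sum_congr rfl fun i _ => h i]
  simp
  norm_num

end Vale.Agent.H39
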