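import Vale.Agent.H39.M6.Defs

/-!
TASK M6-NONNEG (placeholder replaced, statement kept exactly; helper lemmas in this file,
names starting `nng_`).

The level-one coefficients of an antitone function (`x ≤ y → F y ≤ F x`; `true` is the sign `-1`)
are nonnegative: `0 ≤ coef F {i}`.

Sketch.  `coef F {i} = (∑ x, F x * chi {i} x) / 2^n`, `chi {i} x = bsign (x i)`
(`Finset.prod_singleton`).  The map `x ↦ Function.update x i (!x i)` is an involution of the cube
(`Equiv.sum_comp` with `Function.Involutive.toPerm`), so
`2 * ∑ x, F x * bsign (x i) = ∑ x, (F x - F (update x i (!x i))) * bsign (x i)`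
(`bsign (!b) = -bsign b`), and each term is nonnegative: if `x i = false` then
`x ≤ update x i true`, so `F (update x i true) ≤ F x` and `bsign false = 1`; if `x i = true` then
`update x i false ≤ x`, so `F x ≤ F (update x i false)` and `bsign true = -1`.
Alternatively: `Fintype.sum_equiv` with `Fin.insertNthEquiv`/`Equiv.funSplitAt`.
-/

namespace Vale.Agent.H39

open Finset

theorem nng_invol {n : ℕ} (i : Fin n) :
    Function.Involutive (fun x : Fin n → Bool => Function.update x i (!x i)) := by
  intro x
  funext j
  by_cases hj : j = i
  · subst hj
    simp
  · simp [Function.update_of_ne hj]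

theorem coef_singleton_nonneg {n : ℕ} (F : (Fin n → Bool) → ℝ) (hmono : Antitone F)
    (i : Fin n) : 0 ≤ coef F {i} := by
  unfold coef
  apply div_nonneg _ (by positivity)
  have hchi : ∀ x : Fin n → Bool, chi {i} x = bsign (x i) := fun x => by simp [chi]
  simp only [hchi]
  have h := Equiv.sum_comp (nng_invol i).toPerm (fun y => F y * bsign (y i))
  simp only [Function.Involutive.coe_toPerm, Function.update_self] at h
  have hneg : ∀ b : Bool, bsign (!b) = -bsign b := by
    intro b
    cases b <;> simp
  have h2 : 2 * ∑ x : Fin n → Bool, F x * bsign (x i) =
      ∑ x : Fin n → Bool, (F x - F (Function.update x i (!x i))) * bsign (x i) := by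
    have h4 : ∑ x : Fin n → Bool, (F x - F (Function.update x i (!x i))) * bsign (x i) =
        ∑ x : Fin n → Bool, F x * bsign (x i) +
          ∑ x : Fin n → Bool, F (Function.update x i (!x i)) * bsign (!x i) := by
      rw [← Finset.sum_add_distrib]
      apply Finset.sum_congr rfl
      intro x _
      rw [hneg]
      ring
    rw [h4, h]
    ring
  have h3 : 0 ≤ ∑ x : Fin n → Bool, (F x - F (Function.update x i (!x i))) * bsign (x i) := by
    apply Finset.sum_nonneg
    intro x _
    cases hx : x i
    · have hle : x ≤ Function.update x i true := by
        intro j
        by_cases hj : j = i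
        · subst hj
          simp [hx]
        · simp [Function.update_of_ne hj]
      have h5 := hmono hle
      simp only [Bool.not_false, bsign_false, mul_one]
      linarith
    · have hle : Function.update x i false ≤ x := by
        intro j
        by_cases hj : j = i
        · subst hj
          simp
        · simp [Function.update_of_ne hj]
      have h5 := hmono hle
      simp only [Bool.not_true, bsign_true]
      linarith
  linarith

end Vale.Agent.H39
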