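import Vale.Agent.H39.M6.AltSum

/-!
TASK M6-SENS (done, helper44; statement unchanged; no helper lemmas).  Uses `altsum_fourier`
(AltSum.lean).

A sign-valued antitone function (`x ≤ y → F y ≤ F x`: more `true` coordinates, smaller value) of
degree at most `6` is sensitive in at most `6` directions at the all-`false` point:
`∑ i, (F(+) - F(+ⁱ)) ≤ 12`.

Sketch.  `+ ≤ +ⁱ` pointwise, so `F(+ⁱ) ≤ F(+)`.
Case `F(+) = -1`: every `F(+ⁱ) = -1` (values are `±1`), the sum is `0`.
Case `F(+) = 1`: let `S = univ.filter (fun i => F(+ⁱ) = -1)`; each term is `2` if `i ∈ S`, else `0`,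
so the sum is `2 * S.card` (`Finset.sum_ite`/`Finset.sum_boole`), and it suffices to show
`S.card ≤ 6`.  Suppose `6 < S.card`.  For `U ⊆ S`, `U ≠ ∅`, pick `i ∈ U`: `+ⁱ ≤ 1_U`
(`1_U = fun k => decide (k ∈ U)`), so `F(1_U) ≤ F(+ⁱ) = -1`, hence `F(1_U) = -1`; and
`1_∅ = +`, `F(1_∅) = 1`.  Therefore
`∑ U ∈ S.powerset, (-1)^U.card * F(1_U) = 2 - ∑ U ∈ S.powerset, (-1)^U.card = 2`
(`Finset.sum_powerset_neg_one_pow_card`, `S ≠ ∅`).  By `altsum_fourier` the same sum is
`2^S.card * ∑ T, if S ⊆ T then coef F T else 0 = 0`, since `S ⊆ T` gives `6 < T.card`
(`Finset.card_le_card`) and then `coef F T = 0`.  Contradiction.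
-/

namespace Vale.Agent.H39

open Finset

theorem sens_sum_le {n : ℕ} (F : (Fin n → Bool) → ℝ) (hF : ∀ x, F x = 1 ∨ F x = -1)
    (hmono : Antitone F) (hdeg : ∀ S : Finset (Fin n), 6 < S.card → coef F S = 0) :
    ∑ i : Fin n, (F (fun _ => false) - F (Function.update (fun _ => false) i true)) ≤ 12 := by
  classical
  have hterm : ∀ i : Fin n,
      F (Function.update (fun _ => false) i true) ≤ F (fun _ => false) := by
    intro i
    apply hmono
    intro k
    exact Bool.false_le _
  rcases hF (fun _ => false) with h1 | h1
  · obtain ⟨S, hS⟩ : ∃ S : Finset (Fin n), S = Finset.univ.filter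
        (fun i => F (Function.update (fun _ => false) i true) = -1) := ⟨_, rfl⟩
    have hmemS : ∀ i, i ∈ S ↔ F (Function.update (fun _ => false) i true) = -1 := by
      intro i
      rw [hS, Finset.mem_filter]
      exact ⟨fun h => h.2, fun h => ⟨Finset.mem_univ _, h⟩⟩
    have hterm2 : ∀ i : Fin n,
        F (fun _ => false) - F (Function.update (fun _ => false) i true) =
          if i ∈ S then (2 : ℝ) else 0 := by
      intro i
      rcases hF (Function.update (fun _ => false) i true) with h2 | h2
      · have hni : i ∉ S := by
          rw [hmemS, h2]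
          norm_num
        rw [if_neg hni, h1, h2]
        norm_num
      · have hi : i ∈ S := (hmemS i).mpr h2
        rw [if_pos hi, h1, h2]
        norm_num
    have hcard : S.card ≤ 6 := by
      by_contra hc
      rw [not_le] at hc
      have hSne : S.Nonempty := by
        rw [← Finset.card_pos]
        omega
      have halt := altsum_fourier F S
      have hrhs : (∑ T : Finset (Fin n), if S ⊆ T then coef F T else 0) = 0 := by
        apply Finset.sum_eq_zero
        intro T _
        split_ifs with hST
        · exact hdeg T (lt_of_lt_of_le hc (Finset.card_le_card hST))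
        · rfl
      rw [hrhs, mul_zero] at halt
      have hval : ∀ U ∈ S.powerset,
          F (fun i => decide (i ∈ U)) = if U = ∅ then (1 : ℝ) else -1 := by
        intro U hU
        rw [Finset.mem_powerset] at hU
        split_ifs with hUe
        · have hfun : (fun i : Fin n => decide (i ∈ U)) = fun _ => false := by
            funext i
            rw [hUe]
            simp
          rw [hfun]
          exact h1
        · obtain ⟨i, hi⟩ := Finset.nonempty_iff_ne_empty.mpr hUe
          have hFi : F (Function.update (fun _ => false) i true) = -1 := (hmemS i).mp (hU hi)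
          have hle : F (fun k => decide (k ∈ U)) ≤
              F (Function.update (fun _ => false) i true) := by
            apply hmono
            intro k
            by_cases hk : k = i
            · rw [hk]
              simp [hi]
            · rw [Function.update_of_ne hk]
              exact Bool.false_le _
          rcases hF (fun k => decide (k ∈ U)) with h2 | h2
          · rw [h2, hFi] at hle
            norm_num at hle
          · exact h2
      have h0 : ∑ U ∈ S.powerset, (-1 : ℝ) ^ U.card = 0 := by
        have h := Finset.sum_powerset_neg_one_pow_card_of_nonempty hSne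
        have h' := congrArg (Int.cast : ℤ → ℝ) h
        push_cast at h'
        exact h'
      have hterm3 : ∀ U ∈ S.powerset,
          (-1 : ℝ) ^ U.card * F (fun i => decide (i ∈ U)) =
            -((-1 : ℝ) ^ U.card) + (if U = ∅ then (2 : ℝ) else 0) := by
        intro U hU
        rw [hval U hU]
        split_ifs with hUe
        · rw [hUe]
          norm_num
        · ring
      rw [Finset.sum_congr rfl hterm3, Finset.sum_add_distrib, Finset.sum_neg_distrib, h0,
        neg_zero, zero_add, Finset.sum_ite_eq', if_pos (Finset.empty_mem_powerset S)] at halt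
      norm_num at halt
    rw [Finset.sum_congr rfl (fun i _ => hterm2 i), Finset.sum_ite_mem, Finset.univ_inter,
      Finset.sum_const, nsmul_eq_mul]
    have hcard' : (S.card : ℝ) ≤ 6 := by exact_mod_cast hcard
    linarith
  · have hzero : ∀ i : Fin n,
        F (fun _ => false) - F (Function.update (fun _ => false) i true) = 0 := by
      intro i
      have hle := hterm i
      rcases hF (Function.update (fun _ => false) i true) with h2 | h2
      · rw [h1, h2] at hle
        norm_num at hle
      · rw [h1, h2]
        norm_num
    rw [Finset.sum_congr rfl (fun i _ => hzero i)]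
    simp

end Vale.Agent.H39
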