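import Vale.Agent.H39.M6.Defs

/-!
TASK M6-TOPLE (proved; the statement is that of the stub; helper lemmas in this file have
names starting `tle_`).

For a sign-valued antitone `F` (`x ≤ y → F y ≤ F x`) whose first-order sum
`D = ∑ i, (F(+) - F(+ⁱ))` at the all-`false` point `+` is at most `30`: `topV F ≤ 15/2`.

Sketch.  Write `a = F(+)`, `p i = F(+ⁱ)`, `d i = a - p i`, and for `i ≠ j`
`q i j = F(+ⁱʲ)` (`Function.update (Function.update (fun _ => false) i true) j true`).
Antitone: `+ ≤ +ⁱ ≤ +ⁱʲ` and `+ʲ ≤ +ⁱʲ` (pointwise, `Pi.le_def`, `Function.update_apply`), so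
`p i ≤ a`, `q i j ≤ p i`, `q i j ≤ p j`; all values are `±1`.
(1) `d i ∈ {0, 2}`, so `d i ^ 2 = 2 * d i` and `0 ≤ d i`; `D = ∑ i, d i ≥ 0`.
(2) For `i ≠ j`: `a - p i - p j + q i j ≤ d i * d j / 2`.  (Case `a = -1`: all values `-1`, both
sides `0`.  Case `a = 1`: if `p i = p j = 1`, LHS `= q i j - 1 ≤ 0 =` RHS; if `p i = -1` then
`q i j = -1` and both sides equal `1 - p j`; same if `p j = -1`.)
(3) `∑ i, ∑ j, if i = j then 0 else d i * d j / 2 = (D^2 - ∑ i, d i ^ 2)/2 = (D^2 - 2 D)/2`
(`Finset.sum_mul_sum`, split off the diagonal with `Finset.sum_ite`/`Finset.sum_eq_single`, or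
`∑ j, (if i = j then 0 else g j) = ∑ j, g j - g i`).
(4) `topV F ≤ 15/2 * a - 7/4 * D + 1/16 * (D^2 - 2 D) = 15/2 * a + D (D - 30)/16 ≤ 15/2`,
using `a ≤ 1`, `0 ≤ D ≤ 30` (`nlinarith`).
-/

namespace Vale.Agent.H39

open Finset

theorem tle_pair (a p1 p2 q : ℝ) (ha : a = 1 ∨ a = -1) (hp1 : p1 = 1 ∨ p1 = -1)
    (hp2 : p2 = 1 ∨ p2 = -1) (hq : q = 1 ∨ q = -1) (h1 : p1 ≤ a) (h2 : p2 ≤ a) (h3 : q ≤ p1)
    (h4 : q ≤ p2) : a - p1 - p2 + q ≤ (a - p1) * (a - p2) / 2 := by
  rcases ha with rfl | rfl <;> rcases hp1 with rfl | rfl <;> rcases hp2 with rfl | rfl <;>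
    rcases hq with rfl | rfl <;> linarith

theorem tle_sq (a p : ℝ) (ha : a = 1 ∨ a = -1) (hp : p = 1 ∨ p = -1) (h : p ≤ a) :
    (a - p) ^ 2 = 2 * (a - p) := by
  rcases ha with rfl | rfl <;> rcases hp with rfl | rfl <;>
    first | (exfalso; linarith) | norm_num

theorem tle_diag {n : ℕ} (d : Fin n → ℝ) (hd : ∀ i, d i ^ 2 = 2 * d i) :
    ∑ i : Fin n, ∑ j : Fin n, (if i = j then 0 else d i * d j / 2)
      = ((∑ i : Fin n, d i) ^ 2 - 2 * ∑ i : Fin n, d i) / 2 := by
  have h1 : ∀ i : Fin n, ∑ j : Fin n, (if i = j then 0 else d i * d j / 2)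
      = d i * (∑ j : Fin n, d j) / 2 - d i ^ 2 / 2 := by
    intro i
    have h2 : ∀ j : Fin n, (if i = j then (0 : ℝ) else d i * d j / 2)
        = d i * d j / 2 - (if i = j then d i * d j / 2 else 0) := by
      intro j
      split_ifs <;> ring
    rw [Finset.sum_congr rfl (fun j _ => h2 j), Finset.sum_sub_distrib, Finset.sum_ite_eq,
      if_pos (Finset.mem_univ i), ← Finset.sum_div, ← Finset.mul_sum]
    ring
  rw [Finset.sum_congr rfl (fun i _ => h1 i), Finset.sum_sub_distrib, ← Finset.sum_div,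
    ← Finset.sum_div, ← Finset.sum_mul, Finset.sum_congr rfl (fun i _ => hd i), ← Finset.mul_sum]
  ring

theorem tle_core {n : ℕ} (a : ℝ) (p : Fin n → ℝ) (q : Fin n → Fin n → ℝ)
    (ha : a = 1 ∨ a = -1) (hp : ∀ i, p i = 1 ∨ p i = -1) (hq : ∀ i j, q i j = 1 ∨ q i j = -1)
    (h1 : ∀ i, p i ≤ a) (h2 : ∀ i j, q i j ≤ p i) (h3 : ∀ i j, q i j ≤ p j)
    (hD : ∑ i : Fin n, (a - p i) ≤ 30) :
    15 / 2 * a - 7 / 4 * ∑ i : Fin n, (a - p i)
      + 1 / 8 * ∑ i : Fin n, ∑ j : Fin n, (if i = j then 0 else (a - p i - p j + q i j))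
      ≤ 15 / 2 := by
  have hD0 : 0 ≤ ∑ i : Fin n, (a - p i) :=
    Finset.sum_nonneg fun i _ => by linarith [h1 i]
  have hS : ∑ i : Fin n, ∑ j : Fin n, (if i = j then 0 else (a - p i - p j + q i j))
      ≤ ∑ i : Fin n, ∑ j : Fin n, (if i = j then 0 else (a - p i) * (a - p j) / 2) := by
    refine Finset.sum_le_sum fun i _ => Finset.sum_le_sum fun j _ => ?_
    split_ifs with h
    · exact le_refl _
    · exact tle_pair a (p i) (p j) (q i j) ha (hp i) (hp j) (hq i j) (h1 i) (h1 j) (h2 i j)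
        (h3 i j)
  have hsum := tle_diag (fun i => a - p i) (fun i => tle_sq a (p i) ha (hp i) (h1 i))
  have ha1 : a ≤ 1 := by
    rcases ha with rfl | rfl <;> norm_num
  rw [hsum] at hS
  nlinarith [mul_nonneg hD0 (sub_nonneg.mpr hD)]

theorem topV_le {n : ℕ} (F : (Fin n → Bool) → ℝ) (hF : ∀ x, F x = 1 ∨ F x = -1)
    (hmono : Antitone F)
    (hD : ∑ i : Fin n, (F (fun _ => false) - F (Function.update (fun _ => false) i true)) ≤ 30) :
    topV F ≤ 15 / 2 := by
  have hle1 : ∀ i : Fin n,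
      F (Function.update (fun _ => false) i true) ≤ F (fun _ => false) := by
    intro i
    apply hmono
    intro k
    exact Bool.false_le _
  have hle2 : ∀ i j : Fin n,
      F (Function.update (Function.update (fun _ => false) i true) j true)
        ≤ F (Function.update (fun _ => false) i true) := by
    intro i j
    apply hmono
    intro k
    by_cases hk : k = j
    · subst hk
      rw [Function.update_self]
      exact Bool.le_true _
    · rw [Function.update_of_ne hk]
  have hle3 : ∀ i j : Fin n,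
      F (Function.update (Function.update (fun _ => false) i true) j true)
        ≤ F (Function.update (fun _ => false) j true) := by
    intro i j
    apply hmono
    intro k
    by_cases hk : k = j
    · subst hk
      rw [Function.update_self, Function.update_self]
    · rw [Function.update_of_ne hk, Function.update_of_ne hk]
      exact Bool.false_le _
  unfold topV
  exact tle_core (F (fun _ => false)) (fun i => F (Function.update (fun _ => false) i true))
    (fun i j => F (Function.update (Function.update (fun _ => false) i true) j true))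
    (hF _) (fun i => hF _) (fun i j => hF _) hle1 hle2 hle3 hD

end Vale.Agent.H39
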