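import Vale.Agent.H39.M6.Identity6
import Vale.Agent.H39.M6.Sens
import Vale.Agent.H39.M6.TopLe
import Vale.Agent.H39.M6.Nonneg
import Vale.Agent.H39.M6.Maj

/-!
# The majority bound for monotone and unate functions of degree at most six (seat H39)

A monotone Boolean function of degree at most `6` has level-one sum at most `15/8` (the value of
majority on five bits), and one of degree at most `4` has level-one sum at most `3/2` (majority on
three bits).  The same bounds hold for the sum of absolute values when the function becomes
monotone after negating some of its inputs (unate functions).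

Proof for degree `6`.  `8 ∑_i F^({i}) = topV F + topV (starF F)` (`levelOne_identity6`); for a
sign-valued antitone `G` of degree at most `6` the first-order sum at the all-`false` point is at
most `12` (`sens_sum_le`), hence `topV G ≤ 15/2` (`topV_le`); `starF F` is again antitone of degree
at most `6`.
-/

namespace Vale.Agent.H39

open Finset

/-- Degree at most six, real form. -/
theorem mono6_core {n : ℕ} (F : (Fin n → Bool) → ℝ) (hF : ∀ x, F x = 1 ∨ F x = -1)
    (hmono : Antitone F) (hdeg : ∀ S : Finset (Fin n), 6 < S.card → coef F S = 0) :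
    ∑ i : Fin n, coef F {i} ≤ 15 / 8 := by
  have hid := levelOne_identity6 F (fun S hodd h5 => hdeg S (by
    obtain ⟨k, hk⟩ := hodd
    omega))
  have h1 := topV_le F hF hmono (by linarith [sens_sum_le F hF hmono hdeg])
  have hdeg' : ∀ S : Finset (Fin n), 6 < S.card → coef (starF F) S = 0 := by
    intro S hS
    rw [coef_starF, hdeg S hS, mul_zero, neg_zero]
  have h2 := topV_le (starF F) (starF_val F hF) (starF_antitone F hmono)
    (by linarith [sens_sum_le (starF F) (starF_val F hF) (starF_antitone F hmono) hdeg'])
  linarith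

/-- Degree at most four, real form. -/
theorem mono4_core {n : ℕ} (F : (Fin n → Bool) → ℝ) (hF : ∀ x, F x = 1 ∨ F x = -1)
    (hmono : Antitone F) (hdeg : ∀ S : Finset (Fin n), 4 < S.card → coef F S = 0) :
    ∑ i : Fin n, coef F {i} ≤ 3 / 2 := by
  have hid := levelOne_identity F hdeg
  have h1 : ∀ i : Fin n,
      0 ≤ F (fun _ => false) - F (Function.update (fun _ => false) i true) := by
    intro i
    have hle : (fun _ : Fin n => false) ≤ Function.update (fun _ => false) i true :=
      fun k => Bool.false_le _
    exact sub_nonneg.mpr (hmono hle)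
  have h2 : ∀ i : Fin n,
      0 ≤ F (Function.update (fun _ => true) i false) - F (fun _ => true) := by
    intro i
    have hle : Function.update (fun _ : Fin n => true) i false ≤ (fun _ => true) :=
      fun k => Bool.le_true _
    exact sub_nonneg.mpr (hmono hle)
  have s1 : 0 ≤ ∑ i : Fin n,
      (F (fun _ => false) - F (Function.update (fun _ => false) i true)) :=
    Finset.sum_nonneg (fun i _ => h1 i)
  have s2 : 0 ≤ ∑ i : Fin n,
      (F (Function.update (fun _ => true) i false) - F (fun _ => true)) :=
    Finset.sum_nonneg (fun i _ => h2 i)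
  have h3 : F (fun _ => false) - F (fun _ => true) ≤ 2 := by
    rcases hF (fun _ => false) with h | h <;> rcases hF (fun _ => true) with h' | h' <;>
      rw [h, h'] <;> norm_num
  linarith

lemma bsign_antitone {n : ℕ} (f : (Fin n → Bool) → Bool) (hf : Monotone f) :
    Antitone (fun x => bsign (f x)) := by
  intro x y hxy
  have h := hf hxy
  show bsign (f y) ≤ bsign (f x)
  cases hx : f x <;> cases hy : f y
  · simp
  · simp
  · rw [hx, hy] at h
    exact absurd h (by decide)
  · simp

lemma bsign_val {n : ℕ} (f : (Fin n → Bool) → Bool) :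
    ∀ x, bsign (f x) = 1 ∨ bsign (f x) = -1 := by
  intro x
  cases f x <;> simp

/-- A monotone Boolean function of degree at most `6` has level-one sum at most `15/8`. -/
theorem mono6 {n : ℕ} (f : (Fin n → Bool) → Bool) (hf : Monotone f)
    (hdeg : ∀ S : Finset (Fin n), 6 < S.card → fhat f S = 0) :
    ∑ i : Fin n, fhat f {i} ≤ 15 / 8 :=
  mono6_core (fun x => bsign (f x)) (bsign_val f) (bsign_antitone f hf) hdeg

/-- A monotone Boolean function of degree at most `4` has level-one sum at most `3/2`. -/
theorem mono4 {n : ℕ} (f : (Fin n → Bool) → Bool) (hf : Monotone f)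
    (hdeg : ∀ S : Finset (Fin n), 4 < S.card → fhat f S = 0) :
    ∑ i : Fin n, fhat f {i} ≤ 3 / 2 :=
  mono4_core (fun x => bsign (f x)) (bsign_val f) (bsign_antitone f hf) hdeg

/-- Passing from a unate function to the monotone function obtained by negating the inputs marked
by `z`: the level-one sum of the latter is the sum of absolute values of the former. -/
lemma unate_sum {n : ℕ} (f : (Fin n → Bool) → Bool) (z : Fin n → Bool)
    (hf : Monotone (fun x : Fin n → Bool => f (fun i => xor (x i) (z i)))) :
    (∀ S : Finset (Fin n), fhat (fun x : Fin n → Bool => f (fun i => xor (x i) (z i))) S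
        = (∏ i ∈ S, bsign (z i)) * fhat f S) ∧
    ∑ i : Fin n, |fhat f {i}|
      = ∑ i : Fin n, fhat (fun x : Fin n → Bool => f (fun i => xor (x i) (z i))) {i} := by
  have hg : ∀ S : Finset (Fin n),
      fhat (fun x : Fin n → Bool => f (fun i => xor (x i) (z i))) S
        = (∏ i ∈ S, bsign (z i)) * fhat f S := by
    intro S
    exact coef_flip (fun x => bsign (f x)) z S
  refine ⟨hg, ?_⟩
  apply Finset.sum_congr rfl
  intro i _
  have hnn : 0 ≤ fhat (fun x : Fin n → Bool => f (fun i => xor (x i) (z i))) {i} :=
    coef_singleton_nonneg (fun x => bsign (f (fun i => xor (x i) (z i))))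
      (bsign_antitone _ hf) i
  rw [hg, Finset.prod_singleton] at hnn ⊢
  cases hz : z i
  · rw [hz] at hnn
    simp only [bsign_false, one_mul] at hnn ⊢
    exact abs_of_nonneg hnn
  · rw [hz] at hnn
    simp only [bsign_true, neg_mul, one_mul] at hnn ⊢
    exact abs_of_nonpos (by linarith)

/-- A Boolean function of degree at most `6` that is monotone after negating the inputs marked by
`z` has `∑_i |f^({i})| ≤ 15/8`. -/
theorem unate6 {n : ℕ} (f : (Fin n → Bool) → Bool) (z : Fin n → Bool)
    (hf : Monotone (fun x : Fin n → Bool => f (fun i => xor (x i) (z i))))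
    (hdeg : ∀ S : Finset (Fin n), 6 < S.card → fhat f S = 0) :
    ∑ i : Fin n, |fhat f {i}| ≤ 15 / 8 := by
  obtain ⟨hg, hsum⟩ := unate_sum f z hf
  rw [hsum]
  apply mono6 _ hf
  intro S hS
  rw [hg, hdeg S hS, mul_zero]

/-- A Boolean function of degree at most `4` that is monotone after negating the inputs marked by
`z` has `∑_i |f^({i})| ≤ 3/2`. -/
theorem unate4 {n : ℕ} (f : (Fin n → Bool) → Bool) (z : Fin n → Bool)
    (hf : Monotone (fun x : Fin n → Bool => f (fun i => xor (x i) (z i))))
    (hdeg : ∀ S : Finset (Fin n), 4 < S.card → fhat f S = 0) :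
    ∑ i : Fin n, |fhat f {i}| ≤ 3 / 2 := by
  obtain ⟨hg, hsum⟩ := unate_sum f z hf
  rw [hsum]
  apply mono4 _ hf
  intro S hS
  rw [hg, hdeg S hS, mul_zero]

/-- Majority on three bits is monotone with level-one sum `3/2`. -/
theorem exists_mono_three_halves :
    ∃ f : (Fin 3 → Bool) → Bool, Monotone f ∧ ∑ i : Fin 3, fhat f {i} = 3 / 2 :=
  ⟨maj 3, maj_monotone 3, maj3_sum⟩

/-- Majority on five bits is monotone with level-one sum `15/8`. -/
theorem exists_mono_fifteen_eighths :
    ∃ f : (Fin 5 → Bool) → Bool, Monotone f ∧ ∑ i : Fin 5, fhat f {i} = 15 / 8 :=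
  ⟨maj 5, maj_monotone 5, maj5_sum⟩

end Vale.Agent.H39
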