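import Vale.Agent.H39.M6.Defs

/-!
TASK M6-TOPEXPAND (replace the `sorry`, keep the statement exactly; helper lemmas in this file,
names starting `tex_`).

Fourier expansion of `topV` (Defs.lean): for every real `G` on the cube,
`topV G = ∑_S coef G S * ((|S| - 3)(|S| - 5)/2)`.

Sketch.  By `coef_inversion G x : G x = ∑ S, coef G S * chi S x` (BiasPoly.lean) and linearity
(`Finset.mul_sum`, `Finset.sum_comm`, `Finset.sum_sub_distrib`, `Finset.sum_add_distrib`) it is
enough to treat `G = chi S`, i.e. to show for each `S`, with `e i = if i ∈ S then (-1 : ℝ) else 1`: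
* `chi S (fun _ => false) = 1`;
* `chi S (Function.update (fun _ => false) i true) = e i`;
* for `i ≠ j`: `chi S (Function.update (Function.update (fun _ => false) i true) j true) = e i * e j`
  (`chi S x = ∏ k ∈ S, bsign (x k)`; `Finset.prod_ite_eq`-style, or write
  `bsign (update .. k) = if k = i then -1 else 1` and use `Finset.prod_ite_eq'`; see `gfn_chi` in
  D4/GenFun.lean for `chi S x = ∏ k, if k ∈ S then bsign (x k) else 1`);
* `∑ i, (1 - e i) = 2 * S.card` and
  `∑ i, ∑ j, if i = j then 0 else (1 - e i - e j + e i * e j) = 4 * S.card * (S.card - 1)`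
  (`1 - e i - e j + e i e j = (1 - e i)(1 - e j)`, ` (1 - e i) = 2 * [i ∈ S]`, and the diagonal
  `∑ i, (1 - e i)^2 = 4 * S.card`; `Finset.sum_boole`, `Finset.sum_mul_sum`);
* `15/2 - 7/4 * (2 s) + 1/8 * (4 s (s - 1)) = (s - 3)(s - 5)/2` (`ring`).
Numerically checked (random real functions, `n ≤ 8`).
-/

namespace Vale.Agent.H39

open Finset

/-- the sign of the coordinate `i` in the character of `S` -/
noncomputable def tex_e {n : ℕ} (S : Finset (Fin n)) (i : Fin n) : ℝ := if i ∈ S then -1 else 1

theorem tex_chi_false {n : ℕ} (S : Finset (Fin n)) : chi S (fun _ => false) = 1 := by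
  simp [chi]

theorem tex_chi_one {n : ℕ} (S : Finset (Fin n)) (i : Fin n) :
    chi S (Function.update (fun _ => false) i true) = tex_e S i := by
  have h : ∀ k ∈ S, bsign (Function.update (fun _ => false) i true k) =
      if k = i then (-1 : ℝ) else 1 := by
    intro k _
    by_cases hk : k = i
    · subst hk
      simp
    · simp [hk]
  rw [chi, Finset.prod_congr rfl h, Finset.prod_ite_eq']
  rfl

theorem tex_chi_two {n : ℕ} (S : Finset (Fin n)) (i j : Fin n) (hij : i ≠ j) :
    chi S (Function.update (Function.update (fun _ => false) i true) j true) =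
      tex_e S i * tex_e S j := by
  have h : ∀ k ∈ S, bsign (Function.update (Function.update (fun _ => false) i true) j true k) =
      (if k = i then (-1 : ℝ) else 1) * (if k = j then (-1 : ℝ) else 1) := by
    intro k _
    by_cases hkj : k = j
    · subst hkj
      have hki : ¬ k = i := fun h => hij h.symm
      simp [hki]
    · by_cases hki : k = i
      · subst hki
        simp [hkj]
      · simp [hkj, hki]
  rw [chi, Finset.prod_congr rfl h, Finset.prod_mul_distrib, Finset.prod_ite_eq',
    Finset.prod_ite_eq']
  rfl

theorem tex_sum_one {n : ℕ} (S : Finset (Fin n)) :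
    ∑ i : Fin n, (1 - tex_e S i) = 2 * (S.card : ℝ) := by
  have h : ∀ i : Fin n, (1 - tex_e S i) = if i ∈ S then (2 : ℝ) else 0 := by
    intro i
    unfold tex_e
    split_ifs <;> norm_num
  rw [Finset.sum_congr rfl (fun i _ => h i), Finset.sum_ite_mem, Finset.univ_inter,
    Finset.sum_const, nsmul_eq_mul]
  ring

theorem tex_sum_sq {n : ℕ} (S : Finset (Fin n)) :
    ∑ i : Fin n, (1 - tex_e S i) * (1 - tex_e S i) = 4 * (S.card : ℝ) := by
  have h : ∀ i : Fin n, (1 - tex_e S i) * (1 - tex_e S i) = if i ∈ S then (4 : ℝ) else 0 := by
    intro i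
    unfold tex_e
    split_ifs <;> norm_num
  rw [Finset.sum_congr rfl (fun i _ => h i), Finset.sum_ite_mem, Finset.univ_inter,
    Finset.sum_const, nsmul_eq_mul]
  ring

theorem tex_sum_two {n : ℕ} (S : Finset (Fin n)) :
    ∑ i : Fin n, ∑ j : Fin n,
      (if i = j then (0 : ℝ) else (1 - tex_e S i) * (1 - tex_e S j)) =
      4 * (S.card : ℝ) * ((S.card : ℝ) - 1) := by
  have h : ∀ i : Fin n, ∑ j : Fin n,
      (if i = j then (0 : ℝ) else (1 - tex_e S i) * (1 - tex_e S j)) =
      (1 - tex_e S i) * (2 * (S.card : ℝ)) - (1 - tex_e S i) * (1 - tex_e S i) := by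
    intro i
    have h2 : ∀ j : Fin n, (if i = j then (0 : ℝ) else (1 - tex_e S i) * (1 - tex_e S j)) =
        (1 - tex_e S i) * (1 - tex_e S j) -
          (if i = j then (1 - tex_e S i) * (1 - tex_e S j) else 0) := by
      intro j
      split_ifs <;> ring
    rw [Finset.sum_congr rfl (fun j _ => h2 j), Finset.sum_sub_distrib, ← Finset.mul_sum,
      tex_sum_one, Finset.sum_ite_eq, if_pos (Finset.mem_univ i)]
  rw [Finset.sum_congr rfl (fun i _ => h i), Finset.sum_sub_distrib, ← Finset.sum_mul,
    tex_sum_one, tex_sum_sq]
  ring

theorem topV_expand {n : ℕ} (G : (Fin n → Bool) → ℝ) :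
    topV G = ∑ S : Finset (Fin n),
      coef G S * (((S.card : ℝ) - 3) * ((S.card : ℝ) - 5) / 2) := by
  have hP : G (fun _ => false) = ∑ S : Finset (Fin n), coef G S := by
    rw [coef_inversion G (fun _ => false)]
    apply Finset.sum_congr rfl
    intro S _
    rw [tex_chi_false, mul_one]
  have hPi : ∀ i : Fin n, G (Function.update (fun _ => false) i true) =
      ∑ S : Finset (Fin n), coef G S * tex_e S i := by
    intro i
    rw [coef_inversion G (Function.update (fun _ => false) i true)]
    apply Finset.sum_congr rfl
    intro S _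
    rw [tex_chi_one]
  have hPij : ∀ i j : Fin n, i ≠ j →
      G (Function.update (Function.update (fun _ => false) i true) j true) =
      ∑ S : Finset (Fin n), coef G S * (tex_e S i * tex_e S j) := by
    intro i j hij
    rw [coef_inversion G (Function.update (Function.update (fun _ => false) i true) j true)]
    apply Finset.sum_congr rfl
    intro S _
    rw [tex_chi_two S i j hij]
  have hB : ∑ i : Fin n, (G (fun _ => false) - G (Function.update (fun _ => false) i true)) =
      ∑ S : Finset (Fin n), coef G S * (2 * (S.card : ℝ)) := by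
    have h1 : ∀ i : Fin n, G (fun _ => false) - G (Function.update (fun _ => false) i true) =
        ∑ S : Finset (Fin n), coef G S * (1 - tex_e S i) := by
      intro i
      rw [hP, hPi i, ← Finset.sum_sub_distrib]
      apply Finset.sum_congr rfl
      intro S _
      ring
    rw [Finset.sum_congr rfl (fun i _ => h1 i), Finset.sum_comm]
    apply Finset.sum_congr rfl
    intro S _
    rw [← Finset.mul_sum, tex_sum_one]
  have hC : ∑ i : Fin n, ∑ j : Fin n, (if i = j then 0 else
        (G (fun _ => false) - G (Function.update (fun _ => false) i true)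
          - G (Function.update (fun _ => false) j true)
          + G (Function.update (Function.update (fun _ => false) i true) j true))) =
      ∑ S : Finset (Fin n), coef G S * (4 * (S.card : ℝ) * ((S.card : ℝ) - 1)) := by
    have h1 : ∀ i j : Fin n, (if i = j then 0 else
        (G (fun _ => false) - G (Function.update (fun _ => false) i true)
          - G (Function.update (fun _ => false) j true)
          + G (Function.update (Function.update (fun _ => false) i true) j true))) =
        ∑ S : Finset (Fin n), coef G S *
          (if i = j then (0 : ℝ) else (1 - tex_e S i) * (1 - tex_e S j)) := by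
      intro i j
      by_cases hij : i = j
      · simp [hij]
      · rw [if_neg hij, hP, hPi i, hPi j, hPij i j hij, ← Finset.sum_sub_distrib,
          ← Finset.sum_sub_distrib, ← Finset.sum_add_distrib]
        apply Finset.sum_congr rfl
        intro S _
        rw [if_neg hij]
        ring
    calc ∑ i : Fin n, ∑ j : Fin n, (if i = j then 0 else
        (G (fun _ => false) - G (Function.update (fun _ => false) i true)
          - G (Function.update (fun _ => false) j true)
          + G (Function.update (Function.update (fun _ => false) i true) j true)))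
        = ∑ i : Fin n, ∑ j : Fin n, ∑ S : Finset (Fin n), coef G S *
          (if i = j then (0 : ℝ) else (1 - tex_e S i) * (1 - tex_e S j)) :=
          Finset.sum_congr rfl (fun i _ => Finset.sum_congr rfl (fun j _ => h1 i j))
      _ = ∑ i : Fin n, ∑ S : Finset (Fin n), ∑ j : Fin n, coef G S *
          (if i = j then (0 : ℝ) else (1 - tex_e S i) * (1 - tex_e S j)) :=
          Finset.sum_congr rfl (fun i _ => Finset.sum_comm)
      _ = ∑ S : Finset (Fin n), ∑ i : Fin n, ∑ j : Fin n, coef G S *
          (if i = j then (0 : ℝ) else (1 - tex_e S i) * (1 - tex_e S j)) := Finset.sum_comm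
      _ = ∑ S : Finset (Fin n), coef G S * (4 * (S.card : ℝ) * ((S.card : ℝ) - 1)) := by
          apply Finset.sum_congr rfl
          intro S _
          rw [← tex_sum_two S, Finset.mul_sum]
          apply Finset.sum_congr rfl
          intro i _
          rw [Finset.mul_sum]
  rw [topV, hB, hC, Finset.mul_sum, Finset.mul_sum]
  nth_rewrite 1 [hP]
  rw [Finset.mul_sum, ← Finset.sum_sub_distrib, ← Finset.sum_add_distrib]
  apply Finset.sum_congr rfl
  intro S _
  ring

end Vale.Agent.H39
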